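import Mathlib
import Vale.Agent.P216.H215.Large

/-!
# P216, linear fundamental groups

`largeGroup_of_linear`: a finitely generated infinite linear group (over any field), not isomorphic
to `ℤ` or to the infinite dihedral group, satisfies `LargeGroup` (Malcev, Platonov: congruence
subgroups over a finitely generated domain).
-/

set_option linter.all false

open Matrix

namespace Vale.Agent.P216.H126G

open Vale.Agent.P216.H215

/-! ### Finitely generated rings -/

theorem int_jacobson : IsJacobsonRing ℤ := by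
  rw [isJacobsonRing_iff_prime_eq]
  intro P hP
  by_cases h : P = ⊥
  · subst h
    refine le_antisymm (fun x hx => ?_) Ideal.le_jacobson
    rw [Ideal.mem_jacobson_bot] at hx
    rw [Ideal.mem_bot]
    by_contra hx0
    have h1 := hx (3 * x)
    have h2 : 1 ≤ x * x := by
      have := mul_self_pos.2 hx0
      omega
    rcases Int.isUnit_iff.1 h1 with h | h <;> nlinarith
  · have : P.IsMaximal := hP.isMaximal h
    exact Ideal.jacobson_eq_self_of_isMaximal

theorem finite_field_of_ft (S : Type*) [Field S] [Algebra.FiniteType ℤ S] : Finite S := by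
  have := int_jacobson
  have hfin : Module.Finite ℤ S := finite_of_finite_type_of_isJacobsonRing ℤ S
  by_cases hinj : Function.Injective (algebraMap ℤ S)
  · exfalso
    have : Algebra.IsIntegral ℤ S := Algebra.IsIntegral.of_finite ℤ S
    exact Int.not_isField (isField_of_isIntegral_of_isField hinj (Field.toIsField S))
  · rw [injective_iff_map_eq_zero] at hinj
    push Not at hinj
    obtain ⟨a, ha, ha0⟩ := hinj
    refine Module.finite_of_fg_torsion S fun x => ⟨⟨a, mem_nonZeroDivisors_of_ne_zero ha0⟩, ?_⟩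
    change a • x = 0
    rw [Algebra.smul_def, ha, zero_mul]

theorem finite_of_surj {R S : Type*} [CommRing R] [Algebra.FiniteType ℤ R] [Field S]
    (f : R →+* S) (hf : Function.Surjective f) : Finite S := by
  haveI : Algebra.FiniteType ℤ S :=
    Algebra.FiniteType.of_surjective (f.toIntAlgHom) hf
  exact finite_field_of_ft S

theorem finite_quot {R : Type*} [CommRing R] [Algebra.FiniteType ℤ R] (m : Ideal R)
    [m.IsMaximal] : Finite (R ⧸ m) := by
  letI := Ideal.Quotient.field m
  exact finite_of_surj (Ideal.Quotient.mk m) Ideal.Quotient.mk_surjective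

/-! ### Congruence subgroups -/

section Cong

variable {G : Type} [Group G] {R : Type} [CommRing R] {n : ℕ} (ρ : G →* GL (Fin n) R)

/-- the reduction modulo `I` -/
noncomputable def red (I : Ideal R) : G →* GL (Fin n) (R ⧸ I) :=
  (Matrix.GeneralLinearGroup.map (Ideal.Quotient.mk I)).comp ρ

/-- the congruence subgroup -/
noncomputable def cong (I : Ideal R) : Subgroup G := (red ρ I).ker

theorem mem_cong {I : Ideal R} {g : G} : g ∈ cong ρ I ↔
    ∀ i j, (ρ g : Matrix (Fin n) (Fin n) R) i j - (1 : Matrix (Fin n) (Fin n) R) i j ∈ I := by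
  unfold cong
  rw [MonoidHom.mem_ker, Units.ext_iff]
  have e : ∀ i j, ((red ρ I g : GL (Fin n) (R ⧸ I)) : Matrix (Fin n) (Fin n) (R ⧸ I)) i j =
      Ideal.Quotient.mk I ((ρ g : Matrix (Fin n) (Fin n) R) i j) := fun i j => rfl
  have e1 : ∀ i j, (1 : Matrix (Fin n) (Fin n) (R ⧸ I)) i j =
      Ideal.Quotient.mk I ((1 : Matrix (Fin n) (Fin n) R) i j) := fun i j => by
    rw [Matrix.one_apply, Matrix.one_apply]
    split_ifs <;> simp
  constructor
  · intro h i j
    rw [← Ideal.Quotient.mk_eq_mk_iff_sub_mem, ← e, ← e1, h]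
    rfl
  · intro h
    ext i j
    rw [e]
    refine ((Ideal.Quotient.mk_eq_mk_iff_sub_mem _ _).2 (h i j)).trans (e1 i j).symm

theorem cong_mono {I J : Ideal R} (h : I ≤ J) : cong ρ I ≤ cong ρ J := fun g hg =>
  (mem_cong ρ).2 fun i j => h ((mem_cong ρ).1 hg i j)

instance cong_normal (I : Ideal R) : (cong ρ I).Normal := by
  unfold cong
  infer_instance

theorem cong_finiteIndex (I : Ideal R) [Finite (R ⧸ I)] : (cong ρ I).FiniteIndex := by
  unfold cong
  have : Finite (GL (Fin n) (R ⧸ I)) := by
    have : Finite (Matrix (Fin n) (Fin n) (R ⧸ I)) :=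
      inferInstanceAs (Finite (Fin n → Fin n → R ⧸ I))
    infer_instance
  infer_instance

theorem comm_cong {I J : Ideal R} (hIJ : I * I ≤ J) : ⁅cong ρ I, cong ρ I⁆ ≤ cong ρ J := by
  rw [Subgroup.commutator_le]
  intro a ha b hb
  have hmul : ∀ a ∈ cong ρ I, ∀ b ∈ cong ρ I,
      ((red ρ J a : GL (Fin n) (R ⧸ J)) : Matrix (Fin n) (Fin n) (R ⧸ J)) *
        ((red ρ J b : GL (Fin n) (R ⧸ J)) : Matrix (Fin n) (Fin n) (R ⧸ J)) =
      ((red ρ J a : GL (Fin n) (R ⧸ J)) : Matrix (Fin n) (Fin n) (R ⧸ J)) +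
        ((red ρ J b : GL (Fin n) (R ⧸ J)) : Matrix (Fin n) (Fin n) (R ⧸ J)) - 1 := by
    intro a ha b hb
    set A := ((red ρ J a : GL (Fin n) (R ⧸ J)) : Matrix (Fin n) (Fin n) (R ⧸ J)) with hA
    set B := ((red ρ J b : GL (Fin n) (R ⧸ J)) : Matrix (Fin n) (Fin n) (R ⧸ J)) with hB
    have key : (A - 1) * (B - 1) = 0 := by
      ext i k
      rw [Matrix.mul_apply, Matrix.zero_apply]
      refine Finset.sum_eq_zero fun j _ => ?_
      have h1 : ∀ (g : G) (i j : Fin n),
          (((red ρ J g : GL (Fin n) (R ⧸ J)) : Matrix (Fin n) (Fin n) (R ⧸ J)) - 1) i j =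
          Ideal.Quotient.mk J ((ρ g : Matrix (Fin n) (Fin n) R) i j -
            (1 : Matrix (Fin n) (Fin n) R) i j) := fun g i j => by
        rw [Matrix.sub_apply, map_sub, Matrix.one_apply, Matrix.one_apply]
        congr 1
        split_ifs <;> simp
      rw [hA, hB, h1, h1, ← map_mul, Ideal.Quotient.eq_zero_iff_mem]
      exact hIJ (Ideal.mul_mem_mul ((mem_cong ρ).1 ha i j) ((mem_cong ρ).1 hb j k))
    have : (A - 1) * (B - 1) = A * B - A - B + 1 := by noncomm_ring
    rw [this] at key
    have h2 : A * B = (A * B - A - B + 1) + A + B - 1 := by abel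
    rw [h2, key]
    abel
  unfold cong
  rw [MonoidHom.mem_ker, map_commutatorElement, commutatorElement_eq_one_iff_mul_comm]
  refine Units.ext ?_
  rw [Units.val_mul, Units.val_mul, hmul a ha b hb, hmul b hb a ha, add_comm]

/-- the derived series of the first congruence subgroup -/
theorem derived_le (m : Ideal R) (j : ℕ) :
    (derivedSeries (cong ρ m) j).map (cong ρ m).subtype ≤ cong ρ (m ^ (j + 1)) := by
  induction j with
  | zero =>
    rw [zero_add, pow_one]
    exact (Subgroup.map_le_iff_le_comap).2 fun x _ => x.2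
  | succ j ih =>
    rw [derivedSeries_succ, Subgroup.map_commutator]
    refine (Subgroup.commutator_mono ih ih).trans (comm_cong ρ ?_)
    rw [← pow_add]
    exact Ideal.pow_le_pow_right (by omega)

theorem solvable_quot (m : Ideal R) (j : ℕ) :
    Group.IsSolvable (cong ρ m ⧸ (cong ρ (m ^ (j + 1))).subgroupOf (cong ρ m)) := by
  refine ⟨j, ?_⟩
  rw [← map_derivedSeries_eq (QuotientGroup.mk'_surjective
    ((cong ρ (m ^ (j + 1))).subgroupOf (cong ρ m))) j, eq_bot_iff]
  rintro _ ⟨x, hx, rfl⟩
  rw [Subgroup.mem_bot]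
  refine (QuotientGroup.eq_one_iff x).2 ?_
  exact derived_le ρ m j ⟨x, hx, rfl⟩

end Cong

/-! ### Groups of matrices over a finitely generated domain -/

section Dom

variable {G : Type} [Group G] {R : Type} [CommRing R] [IsDomain R] [Algebra.FiniteType ℤ R] {n : ℕ}
  {ρ : G →* GL (Fin n) R}

theorem noeth : IsNoetherianRing R := Algebra.FiniteType.isNoetherianRing ℤ R

/-- the congruence subgroups intersect trivially -/
theorem exists_notMem (hρ : Function.Injective ρ) (m : Ideal R) (hm : m ≠ ⊤) {g : G}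
    (hg : g ≠ 1) : ∃ i, g ∉ cong ρ (m ^ i) := by
  have := noeth (R := R)
  by_contra hcon
  push Not at hcon
  refine hg (hρ ?_)
  rw [map_one]
  refine Units.ext ?_
  ext i j
  have h1 : (ρ g : Matrix (Fin n) (Fin n) R) i j - (1 : Matrix (Fin n) (Fin n) R) i j ∈
      (⨅ r : ℕ, m ^ r) := by
    rw [Ideal.mem_iInf]
    exact fun r => (mem_cong ρ).1 (hcon r) i j
  rw [Ideal.iInf_pow_eq_bot_of_isDomain m hm, Ideal.mem_bot, sub_eq_zero] at h1
  exact h1

theorem finiteResidual_eq_bot (hρ : Function.Injective ρ) : finiteResidual G = ⊥ := by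
  have := noeth (R := R)
  obtain ⟨m, hm⟩ := Ideal.exists_maximal R
  have hfin := finite_quot m
  rw [eq_bot_iff]
  intro g hg
  rw [Subgroup.mem_bot]
  by_contra h1
  obtain ⟨i, hi⟩ := exists_notMem hρ m hm.ne_top h1
  have := Ideal.finite_quotient_pow (IsNoetherian.noetherian m) i
  exact hi (mem_finiteResidual.1 hg _ (cong_finiteIndex ρ (m ^ i)))

/-- **Finite solvable quotients of unbounded order.** -/
theorem solvable_quotients [Infinite G] (hρ : Function.Injective ρ) :
    ∃ H : Subgroup G, H.FiniteIndex ∧ ∀ r : ℕ, ∃ (N : Subgroup H) (_ : N.Normal),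
      N.FiniteIndex ∧ r ≤ N.index ∧ Group.IsSolvable (H ⧸ N) := by
  classical
  have := noeth (R := R)
  obtain ⟨m, hm⟩ := Ideal.exists_maximal R
  have hfin := finite_quot m
  have hH : (cong ρ m).FiniteIndex := cong_finiteIndex ρ m
  refine ⟨cong ρ m, hH, fun r => ?_⟩
  have hinf : Infinite (cong ρ m) := by
    by_contra hcon
    rw [not_infinite_iff_finite] at hcon
    have h1 : Nat.card G = Nat.card (cong ρ m) * (cong ρ m).index :=
      (Subgroup.card_mul_index _).symm
    have h2 : Nat.card G = 0 := Nat.card_eq_zero_of_infinite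
    rw [h2] at h1
    rcases mul_eq_zero.1 h1.symm with h | h
    · exact Nat.card_pos.ne' h
    · exact hH.index_ne_zero h
  obtain ⟨f⟩ : Nonempty (Fin r ↪ cong ρ m) := ⟨(Fin.valEmbedding).trans (Infinite.natEmbedding _)⟩
  -- one level which separates the points
  have hsep : ∃ i, ∀ a b : Fin r, a ≠ b → ((f a)⁻¹ * f b : cong ρ m).1 ∉ cong ρ (m ^ (i + 1)) := by
    have h1 : ∀ a b : Fin r, ∃ i, a ≠ b → ((f a)⁻¹ * f b : cong ρ m).1 ∉ cong ρ (m ^ i) := by
      intro a b
      by_cases hab : a = b
      · exact ⟨0, fun h => absurd hab h⟩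
      · have h2 : ((f a)⁻¹ * f b : cong ρ m).1 ≠ 1 := by
          intro h
          apply hab
          apply f.injective
          rw [← inv_mul_eq_one]
          exact Subtype.ext h
        obtain ⟨i, hi⟩ := exists_notMem hρ m hm.ne_top h2
        exact ⟨i, fun _ => hi⟩
    choose F hF using h1
    refine ⟨Finset.univ.sup fun a => Finset.univ.sup fun b => F a b, fun a b hab hmem => ?_⟩
    refine hF a b hab (cong_mono ρ (Ideal.pow_le_pow_right ?_) hmem)
    have h3 : F a b ≤ Finset.univ.sup fun b => F a b := Finset.le_sup (f := fun b => F a b)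
      (Finset.mem_univ b)
    have h4 : (Finset.univ.sup fun b => F a b) ≤
        Finset.univ.sup fun a => Finset.univ.sup fun b => F a b :=
      Finset.le_sup (f := fun a => Finset.univ.sup fun b => F a b) (Finset.mem_univ a)
    omega
  obtain ⟨i, hi⟩ := hsep
  have hfi := Ideal.finite_quotient_pow (IsNoetherian.noetherian m) (i + 1)
  have hN : (cong ρ (m ^ (i + 1))).FiniteIndex := cong_finiteIndex ρ (m ^ (i + 1))
  have hN' : ((cong ρ (m ^ (i + 1))).subgroupOf (cong ρ m)).FiniteIndex := inferInstance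
  refine ⟨(cong ρ (m ^ (i + 1))).subgroupOf (cong ρ m), inferInstance, hN', ?_,
    solvable_quot ρ m i⟩
  have hfq : Finite (cong ρ m ⧸ (cong ρ (m ^ (i + 1))).subgroupOf (cong ρ m)) :=
    Subgroup.finite_quotient_of_finiteIndex
  let φ : Fin r → cong ρ m ⧸ (cong ρ (m ^ (i + 1))).subgroupOf (cong ρ m) :=
    fun a => QuotientGroup.mk (f a)
  have hφ : Function.Injective φ := by
    intro a b hab
    by_contra hne
    have h := (QuotientGroup.eq (s := (cong ρ (m ^ (i + 1))).subgroupOf (cong ρ m)) (a := f a)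
      (b := f b)).1 hab
    exact hi a b hne (Subgroup.mem_subgroupOf.1 h)
  have := Nat.card_le_card_of_injective φ hφ
  rwa [Nat.card_eq_fintype_card, Fintype.card_fin] at this

end Dom

/-! ### Linear groups -/

/-- A finitely generated linear group is a group of matrices over a finitely generated domain. -/
theorem exists_domain {G : Type} [Group G] [Group.FG G] {n : ℕ} {K : Type} [Field K]
    (ρ : G →* GL (Fin n) K) (hρ : Function.Injective ρ) :
    ∃ (R : Type) (_ : CommRing R) (_ : IsDomain R) (_ : Algebra.FiniteType ℤ R)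
      (ρ' : G →* GL (Fin n) R), Function.Injective ρ' := by
  classical
  obtain ⟨S, hS, hSf⟩ := Group.fg_iff.1 ‹Group.FG G›
  set T : Set K := (⋃ g ∈ S, ⋃ (i : Fin n) (j : Fin n),
    ({(ρ g : Matrix (Fin n) (Fin n) K) i j, ((ρ g)⁻¹ : GL (Fin n) K).1 i j} : Set K)) with hT
  have hTf : T.Finite := by
    refine hSf.biUnion fun g _ => ?_
    exact Set.finite_iUnion fun i => Set.finite_iUnion fun j => Set.toFinite _
  let R := Algebra.adjoin ℤ T
  have hft : Algebra.FiniteType ℤ R := by
    rw [← Subalgebra.fg_iff_finiteType]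
    exact (Subalgebra.fg_def).2 ⟨T, hTf, rfl⟩
  have h1 : ∀ g ∈ S, ∀ i j, (ρ g : Matrix (Fin n) (Fin n) K) i j ∈ R := fun g hg i j => by
    refine Algebra.subset_adjoin ?_
    simp only [hT, Set.mem_iUnion]
    exact ⟨g, hg, i, j, Or.inl rfl⟩
  have h2 : ∀ g ∈ S, ∀ i j, ((ρ g)⁻¹ : GL (Fin n) K).1 i j ∈ R := fun g hg i j => by
    refine Algebra.subset_adjoin ?_
    simp only [hT, Set.mem_iUnion]
    exact ⟨g, hg, i, j, Or.inr rfl⟩
  let v : R →+* K := R.val.toRingHom
  have hv : Function.Injective v := Subtype.val_injective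
  have hvm : Function.Injective (v.mapMatrix : Matrix (Fin n) (Fin n) R →+* _) := by
    intro A B hAB
    ext i j
    have := congrFun (congrFun hAB i) j
    exact this
  let F : GL (Fin n) R →* GL (Fin n) K := Matrix.GeneralLinearGroup.map v
  have hF : Function.Injective F := by
    intro A B hAB
    exact Units.ext (hvm (congrArg Units.val hAB))
  have hS' : ∀ g ∈ S, ρ g ∈ F.range := by
    intro g hg
    let A : Matrix (Fin n) (Fin n) R := fun i j => ⟨_, h1 g hg i j⟩
    let B : Matrix (Fin n) (Fin n) R := fun i j => ⟨_, h2 g hg i j⟩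
    have hA : v.mapMatrix A = (ρ g).1 := rfl
    have hB : v.mapMatrix B = ((ρ g)⁻¹ : GL (Fin n) K).1 := rfl
    refine ⟨⟨A, B, hvm ?_, hvm ?_⟩, Units.ext rfl⟩
    · rw [map_mul, hA, hB, map_one]
      exact (ρ g).mul_inv
    · rw [map_mul, hA, hB, map_one]
      exact (ρ g).inv_mul
  have hr : ρ.range ≤ F.range := by
    rw [MonoidHom.range_eq_map, ← hS, MonoidHom.map_closure, Subgroup.closure_le]
    rintro _ ⟨g, hg, rfl⟩
    exact hS' g hg
  refine ⟨R, inferInstance, inferInstance, hft,
    ((MonoidHom.ofInjective hF).symm.toMonoidHom).comp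
      (ρ.codRestrict F.range fun g => hr ⟨g, rfl⟩), ?_⟩
  intro a b hab
  have h3 := (MonoidHom.ofInjective hF).symm.injective hab
  exact hρ (congrArg Subtype.val h3)

/-- **Linear groups satisfy `LargeGroup`**, the two infinite virtually cyclic exceptions apart. -/
theorem largeGroup_of_linear {G : Type} [Group G] [Group.FG G] [Infinite G] {n : ℕ} {K : Type}
    [Field K] (ρ : G →* GL (Fin n) K) (hρ : Function.Injective ρ)
    (hZ : IsEmpty (G ≃* Multiplicative ℤ)) (hD : IsEmpty (G ≃* DihedralGroup 0)) :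
    LargeGroup G := by
  obtain ⟨R, _, _, _, ρ', hρ'⟩ := exists_domain ρ hρ
  have hR : finiteResidual G = ⊥ := finiteResidual_eq_bot hρ'
  have e : G ⧸ finiteResidual G ≃* G :=
    (QuotientGroup.quotientMulEquivOfEq hR).trans QuotientGroup.quotientBot
  refine Or.inr ⟨fun h => ?_, ⟨fun f => hZ.false (e.symm.trans f)⟩,
    ⟨fun f => hD.false (e.symm.trans f)⟩, Or.inr (solvable_quotients hρ')⟩
  rw [hR] at h
  exact h.index_ne_zero (by rw [Subgroup.index_bot]; exact Nat.card_eq_zero_of_infinite)

end Vale.Agent.P216.H126G
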