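import Vale.Agent.P216.H126G.FG
import Vale.Agent.P216.B7.Props

/-!
# P216: closed manifolds with linear fundamental group, given the virtually cyclic case
-/

set_option linter.all false

open Set Topology Bundle Manifold Matrix
open scoped ContDiff

namespace Vale.Agent.P216.H126G

/-- The rotations of the infinite dihedral group. -/
def rotHom : Multiplicative ℤ →* DihedralGroup 0 where
  toFun n := DihedralGroup.r (Multiplicative.toAdd n)
  map_one' := rfl
  map_mul' a b := (DihedralGroup.r_mul_r _ _).symm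

theorem rotHom_injective : Function.Injective rotHom := fun a b h => by
  have h' : (DihedralGroup.r (n := 0) (Multiplicative.toAdd a : ℤ)) =
    DihedralGroup.r (n := 0) (Multiplicative.toAdd b : ℤ) := h
  injection h' with h''

theorem index_rot : rotHom.range.index = 2 := by
  rw [Subgroup.index_eq_two_iff]
  refine ⟨DihedralGroup.sr 0, fun b => ?_⟩
  have h1 : ∀ i : ZMod 0, (DihedralGroup.r i : DihedralGroup 0) ∈ rotHom.range := fun i =>
    ⟨Multiplicative.ofAdd i, rfl⟩
  have h2 : ∀ i : ZMod 0, (DihedralGroup.sr i : DihedralGroup 0) ∉ rotHom.range := by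
    rintro i ⟨j, hj⟩
    have hj' : (DihedralGroup.r (Multiplicative.toAdd j) : DihedralGroup 0) = DihedralGroup.sr i := hj
    cases hj'
  rcases b with i | i
  · right
    exact ⟨h1 i, by rw [DihedralGroup.r_mul_sr]; exact h2 _⟩
  · left
    exact ⟨by rw [DihedralGroup.sr_mul_sr]; exact h1 _, h2 i⟩

theorem virtZ_of_dihedral {G : Type} [Group G] (e : G ≃* DihedralGroup 0) :
    ∃ H : Subgroup G, H.FiniteIndex ∧ Nonempty (Multiplicative ℤ ≃* H) := by
  have hfi : rotHom.range.FiniteIndex := ⟨by rw [index_rot]; norm_num⟩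
  refine ⟨rotHom.range.map (e.symm : DihedralGroup 0 →* G), ⟨?_⟩, ?_⟩
  · rw [Subgroup.index_map_of_bijective e.symm.bijective, index_rot]
    norm_num
  · exact ⟨(MonoidHom.ofInjective rotHom_injective).trans
      (rotHom.range.equivMapOfInjective _ e.symm.injective)⟩

theorem virtZ_of_int {G : Type} [Group G] (e : G ≃* Multiplicative ℤ) :
    ∃ H : Subgroup G, H.FiniteIndex ∧ Nonempty (Multiplicative ℤ ≃* H) :=
  ⟨⊤, inferInstance, ⟨e.symm.trans Subgroup.topEquiv.symm⟩⟩

section

variable (E : Type) [NormedAddCommGroup E] [NormedSpace ℝ E] [FiniteDimensional ℝ E]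
    {M : Type} [MetricSpace M] [CompactSpace M] [ChartedSpace E M] [IsManifold 𝓘(ℝ, E) ∞ M]
    [RiemannianBundle (fun x : M => TangentSpace 𝓘(ℝ, E) x)]
    [IsContMDiffRiemannianBundle 𝓘(ℝ, E) ∞ E (fun x : M => TangentSpace 𝓘(ℝ, E) x)]
    [IsRiemannianManifold 𝓘(ℝ, E) M]

include E in
/-- **Finite, or linear (no exception), or large fundamental group.** -/
theorem main_pi4 (hV : H215.VGoal) (h3 : H215.ThreeGoal) (hZ : B7.VirtZGoal)
    (hn : 2 ≤ Module.finrank ℝ E) (x₀ : M)
    (h : Finite (FundamentalGroup M x₀) ∨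
      (∃ (n : ℕ) (K : Type) (_ : Field K) (ρ : FundamentalGroup M x₀ →* GL (Fin n) K),
        Function.Injective ρ) ∨ H215.LargeGroup (FundamentalGroup M x₀)) :
    (primeClosedGeodesicImages M).Infinite := by
  rcases h with h | h | h
  · exact main_pi3 E @hV @h3 hn x₀ (Or.inl h)
  · rcases isEmpty_or_nonempty (FundamentalGroup M x₀ ≃* Multiplicative ℤ) with h1 | ⟨⟨e⟩⟩
    · rcases isEmpty_or_nonempty (FundamentalGroup M x₀ ≃* DihedralGroup 0) with h2 | ⟨⟨e⟩⟩
      · exact main_pi3 E @hV @h3 hn x₀ (Or.inr (Or.inl ⟨h, h1, h2⟩))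
      · obtain ⟨H, hH, hH'⟩ := virtZ_of_dihedral e
        exact hZ E M hn x₀ H hH hH'
    · obtain ⟨H, hH, hH'⟩ := virtZ_of_int e
      exact hZ E M hn x₀ H hH hH'
  · exact main_pi3 E @hV @h3 hn x₀ (Or.inr (Or.inr h))

include E in
/-- **Closed manifolds with linear fundamental group.** -/
theorem main_linear (hV : H215.VGoal) (h3 : H215.ThreeGoal) (hZ : B7.VirtZGoal)
    (hn : 2 ≤ Module.finrank ℝ E) (x₀ : M) {n : ℕ} {K : Type} [Field K]
    (ρ : FundamentalGroup M x₀ →* GL (Fin n) K) (hρ : Function.Injective ρ) :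
    (primeClosedGeodesicImages M).Infinite :=
  main_pi4 E @hV @h3 hZ hn x₀ (Or.inr (Or.inl ⟨n, K, inferInstance, ρ, hρ⟩))

end

end Vale.Agent.P216.H126G
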